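import Crest.Agent.N255.Lp.Eps
import Crest.Agent.N255.Ku.Vers

/-!
# Row 255 (helper15): comparison of a vertex family with the image of a wall family
-/

set_option autoImplicit false
set_option linter.unusedSectionVars false
open Set Module Function

noncomputable section

namespace Crest.Agent.N255.Lp

open Cs Cs.Tw Tp Ku Le _root_.N255.Dr _root_.N255.Dr.O

variable {p : ℕ} [Fact p.Prime] {K A : Type} [Field K] [CommRing A] [Algebra K A]
  {G : Gr (Gm p) K A} {m I J : Ideal A} {X : Type} [TopologicalSpace X]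
  {g g1 Gv G1 : Cn G X} {hm : G.Id m} {S SG : Co (Tw G) 2 X} {W : Sb X} {ι : Type} [Fintype ι]
  {H HG : Co K 2 X →ₗ[K] Co K 1 X} {lam mu : ι → Dual K (Co K 2 X)} {ct : ι → Co K 1 X}

theorem nl_diff (g g1 Gv G1 : Cn G X) (S SG : Co (Tw G) 2 X) : nl K G1 SG Gv - nl K g1 S g =
    cur Gv - cur g - cob K (Cs.dif Gv g) - (SG - S - cob K (Cs.dif G1 g1)) := by
  have : Cs.dif Gv g = Cs.dif Gv G1 + Cs.dif G1 g1 - Cs.dif g g1 :=
    funext fun σ => by simp only [Cs.dif, Pi.add_apply, Pi.sub_apply]; abel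
  rw [this, map_sub, map_add, nl, nl]; abel

/-- the nonlinear terms of two close connections -/
theorem nl_cmp (hI : G.Id I) (h : CU W hm g) (h' : CU W hm Gv) (hd : CI W I (Cs.dif Gv g))
    (hS : CI W J (SG - S - cob K (Cs.dif G1 g1))) :
    CI W (J ⊔ m * I) (nl K G1 SG Gv - nl K g1 S g) :=
  nl_diff g g1 Gv G1 S SG ▸ ci_sub (ci_mono (cob_dif_mem hI h h' hd) le_sup_right)
    (ci_mono hS le_sup_left)


variable [Module.Finite K A]

/-- the defect of the class coordinates -/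
def dl (lam mu : ι → Dual K (Co K 2 X)) (N NG : Co (Tw G) 2 X) (j : ι) : Tw G :=
  tev (lam j + mu j) NG - tev (lam j) N

theorem Fam.nl_in (F : Fam hm H g1 S g) (hS : ∀ σ, In m (S σ)) (σ : Sx 2 X) :
    In m (nl K g1 S g σ) :=
  In.sub (In.sub ((sD X).F_in hm F.u σ)
    (ci_univ.1 (ci_cob (ci_univ.2 fun e => u_sub hm (F.u e) (F.u1 e))) σ)) (hS σ)

/-- **comparison**: the parametrices agree on `Z a` up to class terms which are compensated by the
difference of the base points -/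
theorem Fam.cmp_hp (F : Fam hm (hp H lam ct) g1 S g) (FG : Fam hm HG G1 SG Gv)
    (hn : IsNilpotent m) (s : ∀ σ, In m (S σ)) (sG : ∀ σ, In m (SG σ)) (hJ : G.Id J)
    {Z : ℕ → Sb X} (hZ : ∀ k, (Z (k + 1)).Le (Z k)) {a b : ℕ}
    (agr : ∀ f, HG f - H f - ∑ j, (lam j f + mu j f) • ct j ∈ (Z a).van K K 1)
    (fl : ∀ k, a ≤ k → k < b → ∀ f ∈ (Z k).van K K 2, H f ∈ (Z (k + 1)).van K K 1)
    (h1 : CI (Z a) J (Cs.dif G1 g1 - src ct (dl lam mu (nl K g1 S g) (nl K G1 SG Gv))))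
    (hS : CI (Z a) J (SG - S - cob K (Cs.dif G1 g1))) {k : ℕ} (hk : a + k ≤ b) :
    CI (Z (a + k)) (J ⊔ m ^ (k + 1)) (Cs.dif Gv g) := by
  have e0 : HG = hp (HG - ∑ j, (lam j + mu j).smulRight (ct j)) (lam + mu) ct := by simp [hp]
  have FG' := e0 ▸ FG
  have a1 : ∀ σ, In m ((-src ct fun j => tev (lam j) (nl K g1 S g)) σ) := fun σ =>
    In.neg (src_in (fun _ => tev_in _ (F.nl_in s)) σ)
  have a2 : ∀ σ, In m ((-src ct fun j => tev ((lam + mu) j) (nl K G1 SG Gv)) σ) := fun σ =>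
    In.neg (src_in (fun _ => tev_in _ (FG.nl_in sG)) σ)
  have F2 := F.un_hp (g2 := pl hn g1 F.u1 _ a1) pl_U dif_pl
  have FG2 := FG'.un_hp (g2 := pl hn G1 FG.u1 _ a2) pl_U dif_pl
  have e1 : Cs.dif (pl hn G1 FG.u1 _ a2) (pl hn g1 F.u1 _ a1) =
      Cs.dif G1 g1 - src ct (dl lam mu (nl K g1 S g) (nl K G1 SG Gv)) := by
    rw [show dl lam mu (nl K g1 S g) (nl K G1 SG Gv) = (fun j => tev ((lam + mu) j) (nl K G1 SG Gv)) -
      fun j => tev (lam j) (nl K g1 S g) from rfl, src_sub]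
    funext σ
    simp only [Cs.dif, val_pl, Pi.sub_apply, Pi.neg_apply]; abel
  have e2 : Cs.dif G1 (pl hn G1 FG.u1 _ a2) - Cs.dif g1 (pl hn g1 F.u1 _ a1) =
      Cs.dif G1 g1 - Cs.dif (pl hn G1 FG.u1 _ a2) (pl hn g1 F.u1 _ a1) :=
    funext fun σ => by simp only [Cs.dif, Pi.sub_apply]; abel
  refine F2.cmp FG2 hJ hZ (fun f => ?_) fl (e1 ▸ h1) ?_ hk
  · convert agr f using 1
    simp only [LinearMap.sub_apply, LinearMap.sum_apply, LinearMap.smulRight_apply,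
      LinearMap.add_apply]
    abel
  · rw [sub_sub_sub_comm, ← map_sub, e2, map_sub, ← sub_add, e1]
    exact ci_add hS (ci_cob h1)

/-- the defect of a deep coordinate -/
theorem dl_in (hI : G.Id I) (h : CU W hm g) (h' : CU W hm Gv) (hd : CI W I (Cs.dif Gv g))
    (hS : CI W J (SG - S - cob K (Cs.dif G1 g1))) {j : ι} (h0 : mu j = 0)
    (hl : ∀ f ∈ W.van K K 2, lam j f = 0) :
    In (J ⊔ m * I) (dl lam mu (nl K g1 S g) (nl K G1 SG Gv) j) := by
  rw [dl, h0, add_zero, ← map_sub]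
  exact tev_ci hl (nl_cmp hI h h' hd hS)

/-- the defect is first order small if the nonlinear terms are -/
theorem dl_mem {N NG : Co (Tw G) 2 X} (h : ∀ σ, In J (N σ)) (h' : ∀ σ, In J (NG σ)) (j : ι) :
    In J (dl lam mu N NG j) := In.sub (tev_in _ h') (tev_in _ h)

/-- **the substitution**: the variables `e` are determined by the defect, the others by `φ` -/
theorem exists_io {σ : Type} [Fintype σ] {GO : Gr (Gm p) K (O p K σ)} {d : σ → Gm p}
    (hn : IsNilpotent m) (hp : ∀ x ∈ m, x ^ p = 0) (hO : ∀ i, GO.Hg (d i) (z i))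
    {e : ι × Gm p → σ} (hd : ∀ q, d (e q) = q.2) (he : Injective e) (φ : O p K σ →ₐ[K] A)
    (hφ : ∀ u, G.Hg (d u) (φ (z u)) ∧ φ (z u) ∈ m) {N : Co (Tw GO) 2 X}
    (hN : ∀ s, In (mx * mx ⊔ fz K p e) (N s)) {NG : Co (Tw G) 2 X} (hG : ∀ s, In m (NG s))
    (hm : G.Id m) (lam mu : ι → Dual K (Co K 2 X)) {T : ι → Tw G} (hT : ∀ j, In m (T j)) :
    ∃ (ψ : O p K σ →ₐ[K] A) (h : GO.Hom G ψ), (∀ u, ψ (z u) ∈ m) ∧
      (∀ u, u ∉ range e → ψ (z u) = φ (z u)) ∧
      ∀ j, T j - Tw.map h (XX GO e j) = dl lam mu (mc h N) NG j := by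
  obtain ⟨ψ, h1, h2, h3, -⟩ := solve_O hm hn hp hO hd he φ hφ
    (f := fun j => XX GO e j - tev (lam j) N) (t := fun j => T j - tev (lam j + mu j) NG)
    (fun j => by rw [sub_sub_cancel_left]; exact In.neg (tev_in _ hN))
    fun j => In.sub (hT j) (tev_in _ hG)
  have h : GO.Hom G ψ := Tg.hom_of_z hO fun u => (h1 u).1
  refine ⟨ψ, h, fun u => (h1 u).2, h2, fun j => ?_⟩
  have : Tw.map h (XX GO e j - tev (lam j) N) = T j - tev (lam j + mu j) NG :=
    (o G).injective (h3 j)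
  rw [map_sub, map_tev, sub_eq_iff_eq_add] at this
  rw [this, dl]; abel

end Crest.Agent.N255.Lp

end
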